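import Vale.Agent.P264.MathlibUsed

/-!
# P264 / Geo / Core : Kähler metrics and the Calabi flow on `ℙⁿ` in the hyperplane class

`ℙⁿ = (ℂⁿ⁺¹ ∖ 0) / ℂˣ`.  Functions on `ℙⁿ` are functions on `ℂⁿ⁺¹ ∖ 0` that are invariant under
`ℂˣ`; the affine charts are `z ↦ [chart k z]` (insert `1` in the `k`-th place).  A Kähler form in the
hyperplane class is `ω = i∂∂̄ log h` with `h : ℂⁿ⁺¹ ∖ 0 → (0,∞)` smooth and `h(cZ) = |c|² h(Z)`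
(a Hermitian metric on the tautological bundle).  Smooth means real smooth.
-/

open scoped ContDiff ComplexOrder ENNReal

noncomputable section

namespace P264.Geo

/-- `ℂᵐ` -/
abbrev Cm (m : ℕ) : Type := Fin m → ℂ

/-- `∂f/∂z_j = (∂f/∂x_j - i ∂f/∂y_j)/2`. -/
def dz {m : ℕ} (j : Fin m) (f : Cm m → ℂ) (z : Cm m) : ℂ :=
  (fderiv ℝ f z (Pi.single j 1) - Complex.I * fderiv ℝ f z (Pi.single j Complex.I)) / 2

/-- `∂f/∂z̄_j = (∂f/∂x_j + i ∂f/∂y_j)/2`. -/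
def dzb {m : ℕ} (j : Fin m) (f : Cm m → ℂ) (z : Cm m) : ℂ :=
  (fderiv ℝ f z (Pi.single j 1) + Complex.I * fderiv ℝ f z (Pi.single j Complex.I)) / 2

/-- The complex Hessian `(∂²f/∂z_j∂z̄_k)`, the coefficient matrix of `i∂∂̄f`. -/
def cHess {m : ℕ} (f : Cm m → ℝ) (z : Cm m) : Matrix (Fin m) (Fin m) ℂ :=
  Matrix.of fun j k => dz j (dzb k fun y => (f y : ℂ)) z

/-- Scalar curvature `S = tr_ω Ric(ω) = - Σ g^{jk̄} ∂_j ∂_k̄ log det g` of `ω = i Σ g_{jk̄} dz_j∧dz̄_k`. -/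
def scalG {m : ℕ} (g : Cm m → Matrix (Fin m) (Fin m) ℂ) (z : Cm m) : ℝ :=
  -(((g z)⁻¹ * cHess (fun y => Real.log (g y).det.re) z).trace).re

/-- The affine chart `z ↦ (z_0,…,1,…,z_{n-1})` with `1` in the `k`-th place. -/
def chart {n : ℕ} (k : Fin (n + 1)) (z : Cm n) : Cm (n + 1) := k.insertNth (1 : ℂ) z

/-- The local Kähler potential `log h` in the `k`-th chart. -/
def loc {n : ℕ} (h : Cm (n + 1) → ℝ) (k : Fin (n + 1)) (z : Cm n) : ℝ := Real.log (h (chart k z))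

/-- `i∂∂̄ log h` is a smooth Kähler form on `ℙⁿ`. -/
structure IsKahler (n : ℕ) (h : Cm (n + 1) → ℝ) : Prop where
  smooth : ContDiffOn ℝ ∞ h {Z | Z ≠ 0}
  pos : ∀ Z, Z ≠ 0 → 0 < h Z
  homog : ∀ (c : ℂ) Z, Z ≠ 0 → c ≠ 0 → h (c • Z) = ‖c‖ ^ 2 * h Z
  posDef : ∀ k z, (cHess (loc h k) z).PosDef

/-- `φ` is a smooth Calabi flow on `ℙⁿ` on the half-open time interval `[0,T)`, `0 < T ≤ ∞`, starting
from `ω₀ = i∂∂̄ log h₀` (normalised by an additive constant `c`; the usual choice is `c = S̄`):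
`ω(t) = ω₀ + i∂∂̄φ(t) = i∂∂̄ log (h₀ exp φ(t)) > 0`, `φ(0) = 0`, `∂φ/∂t = S(ω(t)) - c`. -/
structure IsFlowUpTo (n : ℕ) (h₀ : Cm (n + 1) → ℝ) (c : ℝ) (T : ℝ≥0∞)
    (φ : ℝ → Cm (n + 1) → ℝ) : Prop where
  smooth : ContDiffOn ℝ ∞ (fun p : ℝ × Cm (n + 1) => φ p.1 p.2)
    ({t | 0 ≤ t ∧ ENNReal.ofReal t < T} ×ˢ {Z | Z ≠ 0})
  homog : ∀ t, 0 ≤ t → ENNReal.ofReal t < T → ∀ (a : ℂ) Z, Z ≠ 0 → a ≠ 0 → φ t (a • Z) = φ t Z
  init : ∀ Z, Z ≠ 0 → φ 0 Z = 0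
  kahler : ∀ t, 0 ≤ t → ENNReal.ofReal t < T → IsKahler n fun Z => h₀ Z * Real.exp (φ t Z)
  flow : ∀ t, 0 ≤ t → ENNReal.ofReal t < T → ∀ k z, HasDerivWithinAt (fun s => φ s (chart k z))
    (scalG (cHess (loc (fun Z => h₀ Z * Real.exp (φ t Z)) k)) z - c)
    {t | 0 ≤ t ∧ ENNReal.ofReal t < T} t

/-- The maximal existence time `T_max ∈ [0,∞]` of the smooth Calabi flow from `i∂∂̄ log h₀`. -/
def Tmax (n : ℕ) (h₀ : Cm (n + 1) → ℝ) : ℝ≥0∞ :=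
  sSup {T | ∃ c φ, IsFlowUpTo n h₀ c T φ}

end P264.Geo

end
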